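import Vale.Agent.P186.Grp

namespace Vale.Agent.Results.P186.NotResiduallyFinite

/-- A walk in a graph is geodesic if its length is the graph distance of its endpoints. -/
def IsGeodesic {V : Type} {C : SimpleGraph V} {x y : V} (p : C.Walk x y) : Prop :=
  p.length = C.dist x y

/-- All geodesic triangles of the graph `C` are `δ`-thin: every vertex on one side is within
distance `δ` of a vertex on one of the two other sides. -/
def ThinTriangles {V : Type} (C : SimpleGraph V) (δ : ℕ) : Prop :=
  ∀ (x y z : V) (p : C.Walk x y) (q : C.Walk y z) (r : C.Walk z x),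
    IsGeodesic p → IsGeodesic q → IsGeodesic r →
      ∀ v ∈ p.support, ∃ w, (w ∈ q.support ∨ w ∈ r.support) ∧ C.dist v w ≤ δ

/-- `G` is word-hyperbolic: it has a finite generating set whose Cayley graph (which is connected)
has uniformly thin geodesic triangles. -/
def IsWordHyperbolic (G : Type) [Group G] : Prop :=
  ∃ S : Finset G, Subgroup.closure (S : Set G) = ⊤ ∧
    (SimpleGraph.mulCayley (S : Set G)).Connected ∧
    ∃ δ : ℕ, ThinTriangles (SimpleGraph.mulCayley (S : Set G)) δ

/-- There is a word-hyperbolic group that is not residually finite. -/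
theorem result : ∃ (G : Type) (_ : Group G), IsWordHyperbolic G ∧ ¬ Group.ResiduallyFinite G := by
  obtain ⟨G, _, S, hS, h1, h2, h3, h4⟩ := Vale.Agent.Tri.exists_hyperbolic
  refine ⟨G, inferInstance, ⟨hS.toFinset, ?_⟩, h4⟩
  rw [hS.coe_toFinset]
  exact ⟨h1, h2, 47, h3⟩

end Vale.Agent.Results.P186.NotResiduallyFinite
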